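import Mathlib

/-!
P057 (backup copy by helper26 of helper31's core theorem): sets of bounded residual width.

Let `b ≥ 2`, `A` a set of natural numbers, `κ` a finite type and `T : ℕ → ℕ → κ` such that two
low parts `r, r' < b ^ s` with `T s r = T s r'` have the same completions: for `t ≥ 1`,
`r + b ^ s * t ∈ A → r' + b ^ s * t ∈ A`.  If the reciprocals of the elements of `A` are not
summable, then `A` contains arithmetic progressions of every length.
-/

namespace Vale.Agent.Lib.P057.H26

open Finset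

/-- the low part `r` at level `s` has no completion in `A` -/
def Dead (b : ℕ) (A : Set ℕ) (s r : ℕ) : Prop := ∀ t, 1 ≤ t → r + b ^ s * t ∉ A

theorem dead_extend {b : ℕ} (hb : 1 ≤ b) {A : Set ℕ} {s r : ℕ} (h : Dead b A s r) (l v : ℕ) :
    Dead b A (s + l) (r + b ^ s * v) := by
  intro t ht hmem
  have hpos : 0 < b ^ l := Nat.pow_pos hb
  have h1 : 1 ≤ v + b ^ l * t := by
    have : 0 < b ^ l * t := Nat.mul_pos hpos ht
    omega
  apply h (v + b ^ l * t) h1
  have e : r + b ^ s * (v + b ^ l * t) = r + b ^ s * v + b ^ (s + l) * t := by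
    rw [pow_add]; ring
  rw [e]
  exact hmem

/-- the sum of the coordinates of a point of a combinatorial line over `Fin (k + 1)` is an
affine function of the parameter, with positive slope -/
theorem line_sum {k : ℕ} {ι : Type} [Fintype ι] (L : Combinatorics.Line (Fin (k + 1)) ι) :
    ∃ c d : ℕ, 0 < d ∧ ∀ x : Fin (k + 1), ∑ i, ((L x i : Fin (k + 1)) : ℕ) = c + (x : ℕ) * d := by
  classical
  refine ⟨∑ i, (L.idxFun i).elim 0 (fun a => (a : ℕ)),
    (Finset.univ.filter (fun i => L.idxFun i = none)).card, ?_, ?_⟩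
  · obtain ⟨i, hi⟩ := L.proper
    exact Finset.card_pos.mpr ⟨i, by simp [hi]⟩
  · intro x
    have h1 : ∀ i, ((L x i : Fin (k + 1)) : ℕ)
        = (L.idxFun i).elim 0 (fun a => (a : ℕ)) + (if L.idxFun i = none then (x : ℕ) else 0) := by
      intro i
      rw [Combinatorics.Line.coe_apply]
      cases h : L.idxFun i <;> simp
    rw [Finset.sum_congr rfl (fun i _ => h1 i), Finset.sum_add_distrib, Finset.sum_ite,
      Finset.sum_const, Finset.sum_const_zero, add_zero, smul_eq_mul, mul_comm]

/-- the Hales-Jewett case -/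
theorem ap_of_not_K (b : ℕ) (hb : 2 ≤ b) (A : Set ℕ) (κ : Type) [Finite κ] (T : ℕ → ℕ → κ)
    (hT : ∀ s r r', r < b ^ s → r' < b ^ s → T s r = T s r' →
      ∀ t, 1 ≤ t → r + b ^ s * t ∈ A → r' + b ^ s * t ∈ A)
    (hnK : ∀ l, ∃ s r, r < b ^ s ∧ ∀ v, v < b ^ l → ¬ Dead b A (s + l) (r + b ^ s * v))
    (k : ℕ) : ∃ a d : ℕ, 0 < a ∧ 0 < d ∧ ∀ j < k, a + j * d ∈ A := by
  obtain ⟨ι, _, hι⟩ := Combinatorics.Line.exists_mono_in_high_dimension (Fin (k + 1)) κ
  obtain ⟨s, r, hr, hnd⟩ := hnK (Fintype.card ι * k)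
  have hNlt : Fintype.card ι * k < b ^ (Fintype.card ι * k) := Nat.lt_pow_self hb
  obtain ⟨L, c, hL⟩ := hι (fun x : ι → Fin (k + 1) =>
    T (s + Fintype.card ι * k) (r + b ^ s * ∑ i, ((x i : Fin (k + 1)) : ℕ)))
  obtain ⟨c0, d, hd, hsum⟩ := line_sum L
  have hbs : 0 < b ^ s := Nat.pow_pos (by omega)
  -- all the sums are small
  have hsmall : ∀ x : Fin (k + 1), c0 + (x : ℕ) * d < b ^ (Fintype.card ι * k) := by
    intro x
    rw [← hsum x]
    refine lt_of_le_of_lt ?_ hNlt
    calc ∑ i, ((L x i : Fin (k + 1)) : ℕ) ≤ ∑ _i : ι, k :=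
          Finset.sum_le_sum (fun i _ => Nat.lt_succ_iff.mp (L x i).isLt)
      _ = Fintype.card ι * k := by simp
  have hlow : ∀ x : Fin (k + 1),
      r + b ^ s * (c0 + (x : ℕ) * d) < b ^ (s + Fintype.card ι * k) := by
    intro x
    have h1 := hsmall x
    calc r + b ^ s * (c0 + (x : ℕ) * d) < b ^ s + b ^ s * (c0 + (x : ℕ) * d) := by omega
      _ = b ^ s * (c0 + (x : ℕ) * d + 1) := by ring
      _ ≤ b ^ s * b ^ (Fintype.card ι * k) := Nat.mul_le_mul_left _ h1
      _ = b ^ (s + Fintype.card ι * k) := by rw [pow_add]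
  have hcol : ∀ x : Fin (k + 1),
      T (s + Fintype.card ι * k) (r + b ^ s * (c0 + (x : ℕ) * d)) = c := by
    intro x
    rw [← hsum x]
    exact hL x
  -- the point with parameter `0` is not dead
  have h0 := hnd (c0 + ((0 : Fin (k + 1)) : ℕ) * d) (hsmall 0)
  unfold Dead at h0
  push Not at h0
  obtain ⟨t, ht, hmem⟩ := h0
  have hbig : 0 < b ^ (s + Fintype.card ι * k) * t :=
    Nat.mul_pos (Nat.pow_pos (by omega)) ht
  refine ⟨r + b ^ s * c0 + b ^ (s + Fintype.card ι * k) * t, b ^ s * d, by omega,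
    Nat.mul_pos hbs hd, ?_⟩
  intro j hj
  have hj' : j < k + 1 := by omega
  have key := hT (s + Fintype.card ι * k) _ _ (hlow 0) (hlow ⟨j, hj'⟩)
    ((hcol 0).trans (hcol ⟨j, hj'⟩).symm) t ht hmem
  have e : r + b ^ s * c0 + b ^ (s + Fintype.card ι * k) * t + j * (b ^ s * d)
      = r + b ^ s * (c0 + ((⟨j, hj'⟩ : Fin (k + 1)) : ℕ) * d) + b ^ (s + Fintype.card ι * k) * t := by
    simp only []
    ring
  rw [e]
  exact key

/-- the counting case, in base `q` and with blocks of one digit: if every low part has a dead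
one-digit extension, the reciprocals are summable -/
theorem summable_of_K (q : ℕ) (hq : 2 ≤ q) (A : Set ℕ)
    (hK : ∀ J r, r < q ^ J → ∃ v, v < q ∧ Dead q A (J + 1) (r + q ^ J * v)) :
    Summable (A.indicator (fun n : ℕ => (1 : ℝ) / n)) := by
  classical
  have hq1 : 1 ≤ q := by omega
  -- a choice of the dead digit
  have hK' : ∀ J r, ∃ v, r < q ^ J → (v < q ∧ Dead q A (J + 1) (r + q ^ J * v)) := by
    intro J r
    by_cases h : r < q ^ J
    · obtain ⟨v, hv⟩ := hK J r h
      exact ⟨v, fun _ => hv⟩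
    · exact ⟨0, fun h' => absurd h' h⟩
  choose w hw using hK'
  -- the live low parts
  set ND : ℕ → Finset ℕ := fun J => (Finset.range (q ^ J)).filter (fun r => ¬ Dead q A J r)
    with hND
  have hNDcard : ∀ J, (ND J).card ≤ (q - 1) ^ J := by
    intro J
    induction J with
    | zero =>
      calc (ND 0).card ≤ (Finset.range (q ^ 0)).card := Finset.card_le_card (Finset.filter_subset _ _)
        _ = (q - 1) ^ 0 := by simp
    | succ J ih =>
      have hsub : ND (J + 1) ⊆ (ND J).biUnion
          (fun r => ((Finset.range q).erase (w J r)).image (fun v => r + q ^ J * v)) := by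
        intro x hx
        rw [hND] at hx
        simp only [Finset.mem_filter, Finset.mem_range] at hx
        obtain ⟨hxlt, hxnd⟩ := hx
        have hqJ : 0 < q ^ J := Nat.pow_pos hq1
        have hmodlt : x % q ^ J < q ^ J := Nat.mod_lt _ hqJ
        have hdec : x % q ^ J + q ^ J * (x / q ^ J) = x := Nat.mod_add_div x (q ^ J)
        have hdivlt : x / q ^ J < q := by
          apply Nat.div_lt_of_lt_mul
          rw [← pow_succ]
          exact hxlt
        rw [Finset.mem_biUnion]
        refine ⟨x % q ^ J, ?_, ?_⟩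
        · rw [hND]
          simp only [Finset.mem_filter, Finset.mem_range]
          refine ⟨hmodlt, fun hdead => hxnd ?_⟩
          have := dead_extend hq1 hdead 1 (x / q ^ J)
          rwa [hdec] at this
        · rw [Finset.mem_image]
          refine ⟨x / q ^ J, ?_, hdec⟩
          rw [Finset.mem_erase, Finset.mem_range]
          refine ⟨fun heq => hxnd ?_, hdivlt⟩
          have := (hw J (x % q ^ J) hmodlt).2
          rwa [← heq, hdec] at this
      calc (ND (J + 1)).card ≤ ((ND J).biUnion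
            (fun r => ((Finset.range q).erase (w J r)).image (fun v => r + q ^ J * v))).card :=
            Finset.card_le_card hsub
        _ ≤ ∑ r ∈ ND J, (((Finset.range q).erase (w J r)).image (fun v => r + q ^ J * v)).card :=
            Finset.card_biUnion_le
        _ ≤ ∑ _r ∈ ND J, (q - 1) := by
            apply Finset.sum_le_sum
            intro r hr
            rw [hND] at hr
            simp only [Finset.mem_filter, Finset.mem_range] at hr
            refine le_trans Finset.card_image_le ?_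
            rw [Finset.card_erase_of_mem (Finset.mem_range.mpr (hw J r hr.1).1), Finset.card_range]
        _ = (ND J).card * (q - 1) := by simp
        _ ≤ (q - 1) ^ J * (q - 1) := Nat.mul_le_mul_right _ ih
        _ = (q - 1) ^ (J + 1) := by rw [pow_succ]
  -- the number of elements of `A` in a block
  have hblock : ∀ J, ((Finset.Ico (q ^ J) (q ^ (J + 1))).filter (fun n => n ∈ A)).card
      ≤ (q - 1) ^ J * q := by
    intro J
    have hqJ : 0 < q ^ J := Nat.pow_pos hq1
    have hmaps : ∀ n ∈ (Finset.Ico (q ^ J) (q ^ (J + 1))).filter (fun n => n ∈ A),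
        (n % q ^ J, n / q ^ J) ∈ (ND J) ×ˢ (Finset.range q) := by
      intro n hn
      simp only [Finset.mem_filter, Finset.mem_Ico] at hn
      obtain ⟨⟨hn1, hn2⟩, hnA⟩ := hn
      rw [Finset.mem_product, hND]
      simp only [Finset.mem_filter, Finset.mem_range]
      refine ⟨⟨Nat.mod_lt _ hqJ, fun hdead => ?_⟩, ?_⟩
      · apply hdead (n / q ^ J) (Nat.div_pos hn1 hqJ)
        rw [Nat.mod_add_div]
        exact hnA
      · apply Nat.div_lt_of_lt_mul
        rw [← pow_succ]
        exact hn2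
    have hinj : Set.InjOn (fun n : ℕ => (n % q ^ J, n / q ^ J))
        ((Finset.Ico (q ^ J) (q ^ (J + 1))).filter (fun n => n ∈ A) : Finset ℕ) := by
      intro m _ n _ hmn
      simp only [Prod.mk.injEq] at hmn
      rw [← Nat.mod_add_div m (q ^ J), ← Nat.mod_add_div n (q ^ J), hmn.1, hmn.2]
    calc ((Finset.Ico (q ^ J) (q ^ (J + 1))).filter (fun n => n ∈ A)).card
        ≤ ((ND J) ×ˢ (Finset.range q)).card := Finset.card_le_card_of_injOn _ hmaps hinj
      _ = (ND J).card * q := by rw [Finset.card_product, Finset.card_range]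
      _ ≤ (q - 1) ^ J * q := Nat.mul_le_mul_right _ (hNDcard J)
  -- real estimates
  set f : ℕ → ℝ := A.indicator (fun n : ℕ => (1 : ℝ) / n) with hf
  have hf0 : ∀ n, 0 ≤ f n := by
    intro n
    rw [hf]
    apply Set.indicator_nonneg
    intro m _
    positivity
  have hQ : (2 : ℝ) ≤ (q : ℝ) := by exact_mod_cast hq
  have hQpos : (0 : ℝ) < (q : ℝ) := by linarith
  set ρ : ℝ := ((q : ℝ) - 1) / q with hρ
  have hρ0 : 0 ≤ ρ := by
    rw [hρ]
    apply div_nonneg <;> linarith
  have hρq : ρ * q = (q : ℝ) - 1 := by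
    rw [hρ]
    field_simp
  have hblockR : ∀ J, ∑ n ∈ Finset.Ico (q ^ J) (q ^ (J + 1)), f n ≤ q * ρ ^ J := by
    intro J
    have hqJ : 0 < q ^ J := Nat.pow_pos hq1
    have hqJR : (0 : ℝ) < (q : ℝ) ^ J := by positivity
    have h1 : ∀ n ∈ Finset.Ico (q ^ J) (q ^ (J + 1)),
        f n ≤ if n ∈ A then (1 : ℝ) / (q : ℝ) ^ J else 0 := by
      intro n hn
      rw [Finset.mem_Ico] at hn
      rw [hf]
      by_cases hA : n ∈ A
      · rw [Set.indicator_of_mem hA, if_pos hA]
        apply one_div_le_one_div_of_le hqJR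
        exact_mod_cast hn.1
      · rw [Set.indicator_of_notMem hA, if_neg hA]
    calc ∑ n ∈ Finset.Ico (q ^ J) (q ^ (J + 1)), f n
        ≤ ∑ n ∈ Finset.Ico (q ^ J) (q ^ (J + 1)), (if n ∈ A then (1 : ℝ) / (q : ℝ) ^ J else 0) :=
          Finset.sum_le_sum h1
      _ = (((Finset.Ico (q ^ J) (q ^ (J + 1))).filter (fun n => n ∈ A)).card : ℝ)
            * ((1 : ℝ) / (q : ℝ) ^ J) := by
          rw [← Finset.sum_filter, Finset.sum_const, nsmul_eq_mul]
      _ ≤ (((q - 1) ^ J * q : ℕ) : ℝ) * ((1 : ℝ) / (q : ℝ) ^ J) := by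
          apply mul_le_mul_of_nonneg_right _ (by positivity)
          exact_mod_cast hblock J
      _ = q * ρ ^ J := by
          rw [hρ, div_pow]
          push_cast [Nat.cast_sub hq1]
          field_simp
  have hpart : ∀ J, ∑ n ∈ Finset.range (q ^ J), f n + (q : ℝ) ^ 2 * ρ ^ J ≤ (q : ℝ) ^ 2 := by
    intro J
    induction J with
    | zero =>
      have : f 0 = 0 := by
        rw [hf]
        by_cases hA : (0 : ℕ) ∈ A
        · rw [Set.indicator_of_mem hA]; simp
        · rw [Set.indicator_of_notMem hA]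
      simp [this]
    | succ J ih =>
      have hle : q ^ J ≤ q ^ (J + 1) := Nat.pow_le_pow_right hq1 (Nat.le_succ J)
      rw [← Finset.sum_range_add_sum_Ico f hle]
      have hb := hblockR J
      have e : (q : ℝ) ^ 2 * ρ ^ (J + 1) = (q : ℝ) * ρ ^ J * (ρ * q) := by ring
      rw [e, hρq]
      nlinarith [pow_nonneg hρ0 J]
  apply summable_of_sum_range_le hf0 (c := (q : ℝ) ^ 2)
  intro n
  have hn : n ≤ q ^ n := (Nat.lt_pow_self hq).le
  calc ∑ i ∈ Finset.range n, f i ≤ ∑ i ∈ Finset.range (q ^ n), f i :=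
        Finset.sum_le_sum_of_subset_of_nonneg (Finset.range_subset_range.mpr hn) (fun i _ _ => hf0 i)
    _ ≤ (q : ℝ) ^ 2 := by
        have := hpart n
        nlinarith [mul_nonneg (sq_nonneg (q : ℝ)) (pow_nonneg hρ0 n)]

/-- **Sets of bounded residual width.**  Let `b ≥ 2`, let `κ` be a finite type and let
`T : ℕ → ℕ → κ` classify the low parts `r < b ^ s` of level `s` in such a way that two low parts
of the same class have the same completions in `A` (for every `t ≥ 1`,
`r + b ^ s * t ∈ A → r' + b ^ s * t ∈ A`).  If the reciprocals of the elements of `A` are not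
summable, then `A` contains arithmetic progressions of every length (with positive first term
and positive difference). -/
theorem core_indicator (b : ℕ) (hb : 2 ≤ b) (A : Set ℕ) (κ : Type) [Finite κ] (T : ℕ → ℕ → κ)
    (hT : ∀ s r r', r < b ^ s → r' < b ^ s → T s r = T s r' →
      ∀ t, 1 ≤ t → r + b ^ s * t ∈ A → r' + b ^ s * t ∈ A)
    (hdiv : ¬ Summable (A.indicator (fun n : ℕ => (1 : ℝ) / n))) (k : ℕ) :
    ∃ a d : ℕ, 0 < a ∧ 0 < d ∧ ∀ j < k, a + j * d ∈ A := by
  have hb1 : 1 ≤ b := by omega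
  by_cases hK : ∃ l, ∀ s r, r < b ^ s → ∃ v, v < b ^ l ∧ Dead b A (s + l) (r + b ^ s * v)
  · exfalso
    obtain ⟨l, hl⟩ := hK
    have hl1 : ∀ s r, r < b ^ s →
        ∃ v, v < b ^ (l + 1) ∧ Dead b A (s + (l + 1)) (r + b ^ s * v) := by
      intro s r hr
      obtain ⟨v, hv, hdead⟩ := hl s r hr
      refine ⟨v, lt_of_lt_of_le hv (Nat.pow_le_pow_right hb1 (Nat.le_succ l)), ?_⟩
      have := dead_extend hb1 hdead 1 0
      simpa [add_assoc] using this
    apply hdiv
    apply summable_of_K (b ^ (l + 1)) ?_ A ?_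
    · calc 2 ≤ b := hb
        _ = b ^ 1 := (pow_one b).symm
        _ ≤ b ^ (l + 1) := Nat.pow_le_pow_right hb1 (by omega)
    · intro J r hr
      rw [← pow_mul] at hr
      obtain ⟨v, hv, hdead⟩ := hl1 ((l + 1) * J) r hr
      refine ⟨v, hv, ?_⟩
      intro t ht
      have := hdead t ht
      rw [← pow_mul, ← pow_mul]
      have e : (l + 1) * (J + 1) = (l + 1) * J + (l + 1) := by ring
      rw [e]
      exact this
  · push Not at hK
    exact ap_of_not_K b hb A κ T hT hK k

/-- the same theorem, with the reciprocal sum written over the subtype of `A` -/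
theorem core (b : ℕ) (hb : 2 ≤ b) (A : Set ℕ) (κ : Type) [Finite κ] (T : ℕ → ℕ → κ)
    (hT : ∀ s r r', r < b ^ s → r' < b ^ s → T s r = T s r' →
      ∀ t, 1 ≤ t → r + b ^ s * t ∈ A → r' + b ^ s * t ∈ A)
    (hdiv : ¬ Summable (fun a : A => (1 : ℝ) / (a : ℕ))) (k : ℕ) :
    ∃ a d : ℕ, 0 < a ∧ 0 < d ∧ ∀ j < k, a + j * d ∈ A := by
  apply core_indicator b hb A κ T hT _ k
  intro h
  apply hdiv
  exact (summable_subtype_iff_indicator (f := fun n : ℕ => (1 : ℝ) / n) (s := A)).mpr h

end Vale.Agent.Lib.P057.H26
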