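import Vale.Agent.Lib.P057.helper26.Core

/-!
P057: digit-restriction sets (position-dependent sets of allowed digits) have bounded residual
width, hence satisfy the conclusion of the core theorem.
-/

namespace Vale.Agent.Lib.P057.H26

/-- the set of positive integers `n` all of whose base-`b` digits are allowed: for every
position `i` below the number of digits of `n` (that is, with `b ^ i ≤ n`), the digit
`n / b ^ i % b` at position `i` (position `0` is the least significant one) lies in `D i` -/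
def DigitSet (b : ℕ) (D : ℕ → Set ℕ) : Set ℕ :=
  {n | 0 < n ∧ ∀ i, b ^ i ≤ n → n / b ^ i % b ∈ D i}

theorem digit_low {b : ℕ} (hb : 1 ≤ b) {s i : ℕ} (hi : i < s) (r t : ℕ) :
    (r + b ^ s * t) / b ^ i % b = r / b ^ i % b := by
  obtain ⟨m, rfl⟩ : ∃ m, s = i + (m + 1) := ⟨s - i - 1, by omega⟩
  have hpos : 0 < b ^ i := Nat.pow_pos hb
  have e : r + b ^ (i + (m + 1)) * t = r + b ^ i * (b * (b ^ m * t)) := by
    rw [pow_add, pow_succ]; ring
  rw [e, Nat.add_mul_div_left _ _ hpos, Nat.add_mul_mod_self_left]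

theorem digit_high {b : ℕ} (hb : 1 ≤ b) {s i : ℕ} (hi : s ≤ i) {r : ℕ} (hr : r < b ^ s)
    (t : ℕ) : (r + b ^ s * t) / b ^ i = t / b ^ (i - s) := by
  obtain ⟨m, rfl⟩ : ∃ m, i = s + m := ⟨i - s, by omega⟩
  have hpos : 0 < b ^ s := Nat.pow_pos hb
  rw [pow_add, ← Nat.div_div_eq_div_mul, Nat.add_mul_div_left _ _ hpos, Nat.div_eq_of_lt hr,
    zero_add, Nat.add_sub_cancel_left]

theorem le_high {b : ℕ} (hb : 1 ≤ b) {s i : ℕ} (hi : s ≤ i) {r : ℕ} (hr : r < b ^ s) (t : ℕ) :
    b ^ i ≤ r + b ^ s * t ↔ b ^ (i - s) ≤ t := by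
  obtain ⟨m, rfl⟩ : ∃ m, i = s + m := ⟨i - s, by omega⟩
  rw [Nat.add_sub_cancel_left, pow_add]
  have hpos : 0 < b ^ s := Nat.pow_pos hb
  constructor
  · intro h
    by_contra hlt
    push Not at hlt
    have : r + b ^ s * t < b ^ s * b ^ m := by
      calc r + b ^ s * t < b ^ s + b ^ s * t := by omega
        _ = b ^ s * (t + 1) := by ring
        _ ≤ b ^ s * b ^ m := Nat.mul_le_mul_left _ hlt
    omega
  · intro h
    calc b ^ s * b ^ m ≤ b ^ s * t := Nat.mul_le_mul_left _ h
      _ ≤ r + b ^ s * t := Nat.le_add_left _ _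

/-- digit-restriction sets have bounded residual width: the class of a low part `r < b ^ s` is
the proposition that all its `s` digits (with leading zeros) are allowed -/
theorem digitSet_hT (b : ℕ) (hb : 2 ≤ b) (D : ℕ → Set ℕ) (s r r' : ℕ) (hr : r < b ^ s)
    (hr' : r' < b ^ s)
    (hT : (∀ i, i < s → r / b ^ i % b ∈ D i) = (∀ i, i < s → r' / b ^ i % b ∈ D i))
    (t : ℕ) (ht : 1 ≤ t) (hmem : r + b ^ s * t ∈ DigitSet b D) :
    r' + b ^ s * t ∈ DigitSet b D := by
  have hb1 : 1 ≤ b := by omega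
  obtain ⟨hpos, hdig⟩ := hmem
  have hbs : 0 < b ^ s := Nat.pow_pos hb1
  have hge : b ^ s ≤ b ^ s * t := Nat.le_mul_of_pos_right _ ht
  have hTr : ∀ i, i < s → r / b ^ i % b ∈ D i := by
    intro i hi
    have h1 : b ^ i ≤ r + b ^ s * t := by
      have : b ^ i ≤ b ^ s := Nat.pow_le_pow_right hb1 hi.le
      omega
    have := hdig i h1
    rwa [digit_low hb1 hi] at this
  have hTr' : ∀ i, i < s → r' / b ^ i % b ∈ D i := Eq.mp hT hTr
  refine ⟨by omega, ?_⟩
  intro i hi
  by_cases his : i < s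
  · rw [digit_low hb1 his]
    exact hTr' i his
  · have his' : s ≤ i := by omega
    rw [digit_high hb1 his' hr']
    have h1 : b ^ i ≤ r + b ^ s * t :=
      (le_high hb1 his' hr t).mpr ((le_high hb1 his' hr' t).mp hi)
    have := hdig i h1
    rwa [digit_high hb1 his' hr] at this

/-- **Digit-restriction sets.**  If the reciprocals of the elements of `DigitSet b D` are not
summable, then `DigitSet b D` contains arithmetic progressions of every length. -/
theorem digit_restriction (b : ℕ) (hb : 2 ≤ b) (D : ℕ → Set ℕ)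
    (hdiv : ¬ Summable (fun a : DigitSet b D => (1 : ℝ) / (a : ℕ))) (k : ℕ) :
    ∃ a d : ℕ, 0 < a ∧ 0 < d ∧ ∀ j < k, a + j * d ∈ DigitSet b D :=
  core b hb (DigitSet b D) Prop (fun s r => ∀ i, i < s → r / b ^ i % b ∈ D i)
    (digitSet_hT b hb D) hdiv k

end Vale.Agent.Lib.P057.H26
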