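import Vale.Agent.Lib.P057.helper26.Digits

/-!
P057: the class of sets of bounded residual width contains a set of natural density zero whose
reciprocals are not summable.  The example is the set of the positive integers whose binary
digit at every position `2 ^ m - 1` (`m ≥ 1`) below their length equals `1`.
-/

namespace Vale.Agent.Lib.P057.H26

open Finset

/-- the restricted positions: `i` with `Nat.log 2 (i + 1) ≠ Nat.log 2 i`, that is
`i = 2 ^ m - 1` with `m ≥ 1` (the positions `1, 3, 7, 15, ...`) -/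
def RS : Set ℕ := {i | Nat.log 2 (i + 1) ≠ Nat.log 2 i}

/-- the allowed binary digits at position `i`: at a restricted position only the digit `1` -/
def D0 (i : ℕ) : Set ℕ := {d | i ∈ RS → d = 1}

/-- the example: the positive integers whose binary digit at every restricted position below
their length is `1` -/
def A0 : Set ℕ := DigitSet 2 D0

open Classical in
/-- the allowed low parts of length `J` -/
noncomputable def Low (J : ℕ) : Finset ℕ :=
  (Finset.range (2 ^ J)).filter (fun r => ∀ i, i < J → r / 2 ^ i % 2 ∈ D0 i)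

open Classical in
theorem mem_Low {J r : ℕ} : r ∈ Low J ↔ r < 2 ^ J ∧ ∀ i, i < J → r / 2 ^ i % 2 ∈ D0 i := by
  unfold Low
  rw [Finset.mem_filter, Finset.mem_range]

theorem low_step {J r v : ℕ} (hr : r < 2 ^ J) (hv : v < 2) :
    r + 2 ^ J * v ∈ Low (J + 1) ↔ r ∈ Low J ∧ v ∈ D0 J := by
  rw [mem_Low, mem_Low]
  have h1 : (1 : ℕ) ≤ 2 := by norm_num
  have hlt : r + 2 ^ J * v < 2 ^ (J + 1) := by
    rw [pow_succ]
    have : 2 ^ J * v ≤ 2 ^ J * 1 := Nat.mul_le_mul_left _ (by omega)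
    omega
  have hJ : (r + 2 ^ J * v) / 2 ^ J % 2 = v := by
    rw [digit_high h1 (le_refl J) hr, Nat.sub_self, pow_zero, Nat.div_one, Nat.mod_eq_of_lt hv]
  constructor
  · rintro ⟨_, h⟩
    refine ⟨⟨hr, fun i hi => ?_⟩, ?_⟩
    · have := h i (by omega)
      rwa [digit_low h1 hi] at this
    · have := h J (by omega)
      rwa [hJ] at this
  · rintro ⟨⟨_, h⟩, hvD⟩
    refine ⟨hlt, fun i hi => ?_⟩
    by_cases hiJ : i < J
    · rw [digit_low h1 hiJ]
      exact h i hiJ
    · have : i = J := by omega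
      subst this
      rw [hJ]
      exact hvD

open Classical in
theorem low_card_succ (J : ℕ) :
    (Low (J + 1)).card
      = (Low J).card * ((Finset.range 2).filter (fun v => v ∈ D0 J)).card := by
  rw [← Finset.card_product]
  have hpos : 0 < 2 ^ J := Nat.pow_pos (by norm_num)
  apply Finset.card_bij' (fun x _ => (x % 2 ^ J, x / 2 ^ J)) (fun p _ => p.1 + 2 ^ J * p.2)
  · intro x _
    exact Nat.mod_add_div x (2 ^ J)
  · intro p hp
    rw [Finset.mem_product, Finset.mem_filter, Finset.mem_range] at hp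
    have hr := (mem_Low.mp hp.1).1
    apply Prod.ext
    · show (p.1 + 2 ^ J * p.2) % 2 ^ J = p.1
      rw [Nat.add_mul_mod_self_left, Nat.mod_eq_of_lt hr]
    · show (p.1 + 2 ^ J * p.2) / 2 ^ J = p.2
      rw [Nat.add_mul_div_left _ _ hpos, Nat.div_eq_of_lt hr, zero_add]
  · intro x hx
    have hxlt : x < 2 ^ (J + 1) := (mem_Low.mp hx).1
    have hm : x % 2 ^ J < 2 ^ J := Nat.mod_lt _ hpos
    have hd : x / 2 ^ J < 2 := by
      apply Nat.div_lt_of_lt_mul
      rw [← pow_succ]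
      exact hxlt
    have hx' : x % 2 ^ J + 2 ^ J * (x / 2 ^ J) ∈ Low (J + 1) := by
      rw [Nat.mod_add_div]
      exact hx
    have := (low_step hm hd).mp hx'
    rw [Finset.mem_product, Finset.mem_filter, Finset.mem_range]
    exact ⟨this.1, hd, this.2⟩
  · intro p hp
    rw [Finset.mem_product, Finset.mem_filter, Finset.mem_range] at hp
    exact (low_step (mem_Low.mp hp.1).1 hp.2.1).mpr ⟨hp.1, hp.2.2⟩

open Classical in
theorem filt_card (J : ℕ) :
    ((Finset.range 2).filter (fun v => v ∈ D0 J)).card = if J ∈ RS then 1 else 2 := by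
  by_cases h : J ∈ RS
  · rw [if_pos h]
    have : (Finset.range 2).filter (fun v => v ∈ D0 J) = {1} := by
      ext v
      rw [Finset.mem_filter, Finset.mem_range, Finset.mem_singleton]
      constructor
      · rintro ⟨_, hv⟩
        exact hv h
      · rintro rfl
        exact ⟨by norm_num, fun _ => rfl⟩
    rw [this, Finset.card_singleton]
  · rw [if_neg h]
    have : (Finset.range 2).filter (fun v => v ∈ D0 J) = Finset.range 2 := by
      apply Finset.filter_true_of_mem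
      intro v _
      show J ∈ RS → v = 1
      intro hJ
      exact absurd hJ h
    rw [this, Finset.card_range]

theorem log_step {J : ℕ} (h : J ∈ RS) : Nat.log 2 (J + 1) = Nat.log 2 J + 1 := by
  have hne : Nat.log 2 (J + 1) ≠ Nat.log 2 J := h
  have hmono : Nat.log 2 J ≤ Nat.log 2 (J + 1) := Nat.log_mono_right (Nat.le_succ J)
  have hle : Nat.log 2 (J + 1) ≤ Nat.log 2 J + 1 := by
    by_contra hcon
    push Not at hcon
    have h1 : 2 ^ (Nat.log 2 J + 2) ≤ J + 1 := by
      calc 2 ^ (Nat.log 2 J + 2) ≤ 2 ^ Nat.log 2 (J + 1) :=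
            Nat.pow_le_pow_right (by norm_num) hcon
        _ ≤ J + 1 := Nat.pow_log_le_self 2 (Nat.succ_ne_zero J)
    have h2 : J < 2 ^ (Nat.log 2 J + 1) := Nat.lt_pow_succ_log_self (by norm_num) J
    have h3 : 2 ^ (Nat.log 2 J + 2) = 2 * 2 ^ (Nat.log 2 J + 1) := by
      rw [pow_succ]
      ring
    omega
  omega

/-- the number of allowed low parts of length `J` is `2 ^ J / 2 ^ (Nat.log 2 J)` -/
theorem low_card (J : ℕ) : (Low J).card * 2 ^ Nat.log 2 J = 2 ^ J := by
  induction J with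
  | zero =>
    have : Low 0 = {0} := by
      ext r
      rw [mem_Low, Finset.mem_singleton]
      constructor
      · rintro ⟨h, _⟩
        simpa using h
      · rintro rfl
        exact ⟨by norm_num, fun i hi => absurd hi (Nat.not_lt_zero i)⟩
    rw [this]
    simp
  | succ J ih =>
    rw [low_card_succ, filt_card]
    by_cases h : J ∈ RS
    · rw [if_pos h, mul_one, log_step h, pow_succ, ← mul_assoc, ih, pow_succ]
    · rw [if_neg h]
      have hlog : Nat.log 2 (J + 1) = Nat.log 2 J := by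
        by_contra hne
        exact h hne
      rw [hlog, pow_succ, ← ih]
      ring

theorem mem_A0_of_low {J r : ℕ} (hr : r ∈ Low J) : r + 2 ^ J ∈ A0 := by
  obtain ⟨hlt, hdig⟩ := mem_Low.mp hr
  have hpos : 0 < 2 ^ J := Nat.pow_pos (by norm_num)
  show 0 < r + 2 ^ J ∧ ∀ i, 2 ^ i ≤ r + 2 ^ J → (r + 2 ^ J) / 2 ^ i % 2 ∈ D0 i
  refine ⟨by omega, ?_⟩
  intro i hi
  have hiJ : i ≤ J := by
    by_contra hcon
    push Not at hcon
    have : 2 ^ (J + 1) ≤ 2 ^ i := Nat.pow_le_pow_right (by norm_num) hcon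
    rw [pow_succ] at this
    omega
  have e : r + 2 ^ J = r + 2 ^ J * 1 := by rw [mul_one]
  rcases Nat.lt_or_eq_of_le hiJ with h | h
  · rw [e, digit_low (by norm_num) h]
    exact hdig i h
  · subst h
    rw [e, digit_high (by norm_num) (le_refl i) hlt, Nat.sub_self, pow_zero, Nat.div_one]
    show i ∈ RS → 1 % 2 = 1
    intro _
    rfl

theorem low_of_mem_A0 {J n : ℕ} (hn : n ∈ A0) (hJ : 2 ^ J ≤ n) : n % 2 ^ J ∈ Low J := by
  have hpos : 0 < 2 ^ J := Nat.pow_pos (by norm_num)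
  have hdig : ∀ i, 2 ^ i ≤ n → n / 2 ^ i % 2 ∈ D0 i := hn.2
  rw [mem_Low]
  refine ⟨Nat.mod_lt _ hpos, fun i hi => ?_⟩
  have h2 : 2 ^ i ≤ n := le_trans (Nat.pow_le_pow_right (by norm_num) hi.le) hJ
  have h3 := hdig i h2
  have e := digit_low (b := 2) (by norm_num) hi (n % 2 ^ J) (n / 2 ^ J)
  rw [Nat.mod_add_div] at e
  rw [← e]
  exact h3

/-- the reciprocals of the elements of the example are not summable -/
theorem A0_not_summable : ¬ Summable (fun a : A0 => (1 : ℝ) / (a : ℕ)) := by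
  intro hsum
  have hsum' : Summable (A0.indicator (fun n : ℕ => (1 : ℝ) / n)) :=
    (summable_subtype_iff_indicator (f := fun n : ℕ => (1 : ℝ) / n) (s := A0)).mp hsum
  revert hsum'
  set f : ℕ → ℝ := A0.indicator (fun n : ℕ => (1 : ℝ) / n) with hf
  have hf0 : ∀ n, 0 ≤ f n := by
    intro n
    rw [hf]
    apply Set.indicator_nonneg
    intro m _
    positivity
  -- the block `[2 ^ J, 2 ^ (J + 1))` contributes at least `1 / (2 J)`
  have hblock : ∀ J : ℕ, 1 ≤ J →
      (1 : ℝ) / (2 * (J : ℝ)) ≤ ∑ n ∈ Finset.Ico (2 ^ J) (2 ^ (J + 1)), f n := by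
    intro J hJ
    have hpos : 0 < 2 ^ J := Nat.pow_pos (by norm_num)
    have hsub : (Low J).image (fun r => r + 2 ^ J) ⊆ Finset.Ico (2 ^ J) (2 ^ (J + 1)) := by
      intro x hx
      rw [Finset.mem_image] at hx
      obtain ⟨r, hr, rfl⟩ := hx
      have := (mem_Low.mp hr).1
      rw [Finset.mem_Ico, pow_succ]
      omega
    have hinj : Set.InjOn (fun r => r + 2 ^ J) (Low J : Set ℕ) := by
      intro a _ b _ hab
      have hab' : a + 2 ^ J = b + 2 ^ J := hab
      omega
    have hc := low_card J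
    have hlog : 2 ^ Nat.log 2 J ≤ J := Nat.pow_log_le_self 2 (by omega)
    have hcR : ((Low J).card : ℝ) * (2 : ℝ) ^ Nat.log 2 J = (2 : ℝ) ^ J := by exact_mod_cast hc
    have hlogR : (2 : ℝ) ^ Nat.log 2 J ≤ (J : ℝ) := by exact_mod_cast hlog
    have hJR : (1 : ℝ) ≤ (J : ℝ) := by exact_mod_cast hJ
    have h2J : (0 : ℝ) < (2 : ℝ) ^ J := by positivity
    have hcard : (2 : ℝ) ^ J / J ≤ ((Low J).card : ℝ) := by
      rw [div_le_iff₀ (by linarith)]
      calc (2 : ℝ) ^ J = ((Low J).card : ℝ) * (2 : ℝ) ^ Nat.log 2 J := hcR.symm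
        _ ≤ ((Low J).card : ℝ) * J := mul_le_mul_of_nonneg_left hlogR (Nat.cast_nonneg _)
    have hterm : ∀ r ∈ Low J, (1 : ℝ) / 2 ^ (J + 1) ≤ f (r + 2 ^ J) := by
      intro r hr
      have hmem : r + 2 ^ J ∈ A0 := mem_A0_of_low hr
      have hlt := (mem_Low.mp hr).1
      rw [hf, Set.indicator_of_mem hmem]
      show (1 : ℝ) / 2 ^ (J + 1) ≤ 1 / ((r + 2 ^ J : ℕ) : ℝ)
      apply one_div_le_one_div_of_le
      · exact_mod_cast (by omega : 0 < r + 2 ^ J)
      · have : r + 2 ^ J ≤ 2 ^ (J + 1) := by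
          rw [pow_succ]
          omega
        exact_mod_cast this
    calc (1 : ℝ) / (2 * (J : ℝ)) = (2 : ℝ) ^ J / J * (1 / 2 ^ (J + 1)) := by
          rw [pow_succ]
          field_simp
      _ ≤ ((Low J).card : ℝ) * (1 / 2 ^ (J + 1)) :=
          mul_le_mul_of_nonneg_right hcard (by positivity)
      _ = ∑ _r ∈ Low J, (1 : ℝ) / 2 ^ (J + 1) := by rw [Finset.sum_const, nsmul_eq_mul]
      _ ≤ ∑ r ∈ Low J, f (r + 2 ^ J) := Finset.sum_le_sum hterm
      _ = ∑ n ∈ (Low J).image (fun r => r + 2 ^ J), f n := (Finset.sum_image hinj).symm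
      _ ≤ ∑ n ∈ Finset.Ico (2 ^ J) (2 ^ (J + 1)), f n :=
          Finset.sum_le_sum_of_subset_of_nonneg hsub (fun i _ _ => hf0 i)
  -- partial sums dominate half the harmonic sums
  have hpart : ∀ J : ℕ, (1 / 2 : ℝ) * ∑ i ∈ Finset.range J, (1 / ((i : ℝ) + 1))
      ≤ ∑ n ∈ Finset.range (2 ^ (J + 1)), f n := by
    intro J
    induction J with
    | zero =>
      rw [Finset.sum_range_zero, mul_zero]
      exact Finset.sum_nonneg (fun i _ => hf0 i)
    | succ J ih =>
      have hle : 2 ^ (J + 1) ≤ 2 ^ (J + 1 + 1) :=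
        Nat.pow_le_pow_right (by norm_num) (Nat.le_succ _)
      rw [← Finset.sum_range_add_sum_Ico f hle, Finset.sum_range_succ, mul_add]
      have hb := hblock (J + 1) (by omega)
      have e : (1 / 2 : ℝ) * (1 / ((J : ℝ) + 1)) = 1 / (2 * ((J + 1 : ℕ) : ℝ)) := by
        push_cast
        field_simp
      rw [e]
      linarith
  rw [imp_false, not_summable_iff_tendsto_nat_atTop_of_nonneg hf0, Filter.tendsto_atTop_atTop]
  intro B
  obtain ⟨J, hJ⟩ := (Filter.tendsto_atTop.mp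
    Real.tendsto_sum_range_one_div_nat_succ_atTop (2 * B)).exists
  refine ⟨2 ^ (J + 1), fun a ha => ?_⟩
  calc B ≤ (1 / 2 : ℝ) * ∑ i ∈ Finset.range J, (1 / ((i : ℝ) + 1)) := by linarith
    _ ≤ ∑ n ∈ Finset.range (2 ^ (J + 1)), f n := hpart J
    _ ≤ ∑ n ∈ Finset.range a, f n :=
        Finset.sum_le_sum_of_subset_of_nonneg (Finset.range_subset_range.mpr ha)
          (fun i _ _ => hf0 i)

/-- the example has natural density zero -/
theorem A0_density_zero :
    ∀ ε : ℝ, 0 < ε → ∃ N₀ : ℕ, ∀ N ≥ N₀, ((A0 ∩ Set.Iic N).ncard : ℝ) ≤ ε * N := by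
  intro ε hε
  obtain ⟨m, hm⟩ : ∃ m : ℕ, (1 / 2 : ℝ) ^ m < ε / 2 :=
    exists_pow_lt_of_lt_one (by linarith) (by norm_num)
  obtain ⟨J, hJ⟩ : ∃ J : ℕ, J = 2 ^ m := ⟨_, rfl⟩
  obtain ⟨N₀, hN₀⟩ : ∃ N₀ : ℕ, (2 : ℝ) ^ (J + 1) / (ε / 2) ≤ N₀ := exists_nat_ge _
  refine ⟨N₀, fun N hN => ?_⟩
  have hpos : 0 < 2 ^ J := Nat.pow_pos (by norm_num)
  have hcover : A0 ∩ Set.Iic N ⊆ ↑(Finset.range (2 ^ J) ∪
      ((Low J) ×ˢ (Finset.range (N / 2 ^ J + 1))).image (fun p => p.1 + 2 ^ J * p.2)) := by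
    intro n hn
    obtain ⟨hnA, hnN⟩ := hn
    have hnN' : n ≤ N := hnN
    rw [Finset.mem_coe, Finset.mem_union]
    by_cases h : n < 2 ^ J
    · left
      exact Finset.mem_range.mpr h
    · right
      rw [Finset.mem_image]
      refine ⟨(n % 2 ^ J, n / 2 ^ J), ?_, Nat.mod_add_div n (2 ^ J)⟩
      rw [Finset.mem_product, Finset.mem_range]
      exact ⟨low_of_mem_A0 hnA (by omega), Nat.lt_succ_of_le (Nat.div_le_div_right hnN')⟩
  have hcard : (A0 ∩ Set.Iic N).ncard ≤ 2 ^ J + (Low J).card * (N / 2 ^ J + 1) := by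
    calc (A0 ∩ Set.Iic N).ncard
        ≤ (↑(Finset.range (2 ^ J) ∪ ((Low J) ×ˢ (Finset.range (N / 2 ^ J + 1))).image
            (fun p => p.1 + 2 ^ J * p.2)) : Set ℕ).ncard :=
          Set.ncard_le_ncard hcover (Finset.finite_toSet _)
      _ = (Finset.range (2 ^ J) ∪ ((Low J) ×ˢ (Finset.range (N / 2 ^ J + 1))).image
            (fun p => p.1 + 2 ^ J * p.2)).card := Set.ncard_coe_finset _
      _ ≤ (Finset.range (2 ^ J)).card + (((Low J) ×ˢ (Finset.range (N / 2 ^ J + 1))).image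
            (fun p => p.1 + 2 ^ J * p.2)).card := Finset.card_union_le _ _
      _ ≤ 2 ^ J + (Low J).card * (N / 2 ^ J + 1) := by
          rw [Finset.card_range]
          apply Nat.add_le_add_left
          refine le_trans Finset.card_image_le ?_
          rw [Finset.card_product, Finset.card_range]
  have hlog : Nat.log 2 J = m := by
    rw [hJ]
    exact Nat.log_pow (by norm_num) m
  have hc : (Low J).card * 2 ^ m = 2 ^ J := by
    have := low_card J
    rwa [hlog] at this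
  -- real arithmetic
  have hcR : ((Low J).card : ℝ) * (2 : ℝ) ^ m = (2 : ℝ) ^ J := by exact_mod_cast hc
  have h2m : (0 : ℝ) < (2 : ℝ) ^ m := by positivity
  have h2J : (0 : ℝ) < (2 : ℝ) ^ J := by positivity
  have hcval : ((Low J).card : ℝ) = (2 : ℝ) ^ J / (2 : ℝ) ^ m := by
    rw [eq_div_iff h2m.ne']
    exact hcR
  have hcle : ((Low J).card : ℝ) ≤ (2 : ℝ) ^ J := by
    rw [hcval]
    apply div_le_self h2J.le
    exact one_le_pow₀ (by norm_num)
  have hdiv : ((N / 2 ^ J : ℕ) : ℝ) ≤ (N : ℝ) / (2 : ℝ) ^ J := by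
    have := Nat.cast_div_le (α := ℝ) (m := N) (n := 2 ^ J)
    simpa using this
  have hNR : (N₀ : ℝ) ≤ (N : ℝ) := by exact_mod_cast hN
  have hbig : (2 : ℝ) ^ (J + 1) ≤ ε / 2 * N := by
    have h1 : (2 : ℝ) ^ (J + 1) / (ε / 2) ≤ N := le_trans hN₀ hNR
    rw [div_le_iff₀ (by linarith)] at h1
    linarith
  have hm' : (1 : ℝ) / (2 : ℝ) ^ m ≤ ε / 2 := by
    rw [one_div_pow] at hm
    exact hm.le
  have hN0 : (0 : ℝ) ≤ (N : ℝ) := Nat.cast_nonneg N
  calc ((A0 ∩ Set.Iic N).ncard : ℝ)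
      ≤ ((2 ^ J + (Low J).card * (N / 2 ^ J + 1) : ℕ) : ℝ) := by exact_mod_cast hcard
    _ = (2 : ℝ) ^ J + ((Low J).card : ℝ) * (((N / 2 ^ J : ℕ) : ℝ) + 1) := by push_cast; ring
    _ ≤ (2 : ℝ) ^ J + ((Low J).card : ℝ) * ((N : ℝ) / (2 : ℝ) ^ J + 1) := by
        have : ((Low J).card : ℝ) * (((N / 2 ^ J : ℕ) : ℝ) + 1)
            ≤ ((Low J).card : ℝ) * ((N : ℝ) / (2 : ℝ) ^ J + 1) :=
          mul_le_mul_of_nonneg_left (by linarith) (Nat.cast_nonneg _)
        linarith
    _ = (2 : ℝ) ^ J + ((Low J).card : ℝ) + (N : ℝ) * (1 / (2 : ℝ) ^ m) := by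
        rw [hcval]
        field_simp
        ring
    _ ≤ (2 : ℝ) ^ J + (2 : ℝ) ^ J + (N : ℝ) * (ε / 2) := by
        have := mul_le_mul_of_nonneg_left hm' hN0
        linarith
    _ ≤ ε * N := by
        have e : (2 : ℝ) ^ (J + 1) = (2 : ℝ) ^ J + (2 : ℝ) ^ J := by
          rw [pow_succ]
          ring
        linarith

/-- **A member of the class of density zero.**  There is a set of positive integers of bounded
residual width in base `2` (two classes of low parts at every level) whose reciprocals are not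
summable and which has natural density zero. -/
theorem exists_zero_density_member :
    ∃ (A : Set ℕ) (T : ℕ → ℕ → Prop),
      (∀ a ∈ A, 0 < a) ∧
      (∀ s r r', r < 2 ^ s → r' < 2 ^ s → T s r = T s r' →
        ∀ t, 1 ≤ t → r + 2 ^ s * t ∈ A → r' + 2 ^ s * t ∈ A) ∧
      ¬ Summable (fun a : A => (1 : ℝ) / (a : ℕ)) ∧
      ∀ ε : ℝ, 0 < ε → ∃ N₀ : ℕ, ∀ N ≥ N₀, ((A ∩ Set.Iic N).ncard : ℝ) ≤ ε * N :=
  ⟨A0, fun s r => ∀ i, i < s → r / 2 ^ i % 2 ∈ D0 i, fun _ ha => ha.1,
    digitSet_hT 2 (le_refl 2) D0, A0_not_summable, A0_density_zero⟩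

end Vale.Agent.Lib.P057.H26
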